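import Vale.Agent.P181.LF.Union
import Vale.Agent.P181.TL.H976.TwoA

set_option autoImplicit false

/-!
# P181, LF: the union for `b ≥ C a` with one constant

The clause `θ a ^ 2 ≤ λ_2` (with `C` depending on `θ`) is replaced by `C a ^ 5 ≤ D_2 λ_2 ^ 2`.
-/

open Finset

namespace Vale.Agent.P181.LF.H290

open Vale.Agent.P181.H280 (plethMult)
open Vale.Agent.P181.T4 (ex)
open Vale.Agent.P181.PL (dn PolyS)
open Vale.Agent.P181.LF

/-- Every shape except `λ_2 > a ^ 2 / polylog`, `b - a + 1 < D_2 < C a min(polylog, (a ^ 2 / λ_2) ^ 2)`. -/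
def LinU : Prop := ∃ (C : ℝ) (c : ℕ), 0 < C ∧ ∀ a b : ℕ, C * a ≤ b →
  ∀ (n : ℕ) (lam : Fin n → ℕ),
  (C * (1 + Real.log a) ^ c * (dn lam 1 : ℝ) ≤ (a : ℝ) ^ 2 ∨
    C * (1 + Real.log a) ^ c * a ≤ (dn lam 2 : ℝ) ∨
    C * (a : ℝ) ^ 5 ≤ (dn lam 2 : ℝ) * (ex lam 1 : ℝ) ^ 2 ∨ a + dn lam 2 ≤ b + 1) →
  plethMult a b n lam ≤ plethMult b a n lam

/-- The same for `C D_2 ≤ a b`. -/
def LinUD : Prop := ∃ (C : ℝ) (c : ℕ), 0 < C ∧ ∀ a b : ℕ, C * a ≤ b →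
  ∀ (n : ℕ) (lam : Fin n → ℕ), C * (dn lam 2 : ℝ) ≤ a * b →
  (C * (1 + Real.log a) ^ c * (dn lam 1 : ℝ) ≤ (a : ℝ) ^ 2 ∨
    C * (1 + Real.log a) ^ c * a ≤ (dn lam 2 : ℝ) ∨
    C * (a : ℝ) ^ 5 ≤ (dn lam 2 : ℝ) * (ex lam 1 : ℝ) ^ 2 ∨ a + dn lam 2 ≤ b + 1) →
  plethMult a b n lam ≤ plethMult b a n lam

/-- The numbers of the window. -/
lemma reals {a D x L C1 : ℝ} (ha : 1 ≤ a) (hL1 : 1 ≤ L) (hC1 : 0 < C1) (hx0 : 0 ≤ x)
    (hsm : 10 ^ 13 * L ^ 2 + 16 * C1 * L ^ 2 + 2 * C1 * L ^ 2 ≤ a) (hD : D ≤ C1 * L * a)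
    (hx : x ≤ a ^ 2) (hkey : (10 ^ 11 + C1) * a ^ 5 ≤ D * x ^ 2) :
    ∃ r : ℕ, 8 ≤ r ∧ 8 * a ^ 2 ≤ r * x ∧ (r : ℝ) ^ 2 * (10 ^ 9 * a) + a ≤ D ∧
      10 ^ 9 * (r : ℝ) ^ 4 ≤ a ∧ 16 * D ≤ a ^ 2 ∧ 2 * D ≤ x := by
  have ha0 : 0 < a := by linarith
  have hL0 : 0 < L := by linarith
  have ha5 : 0 < a ^ 5 := by positivity
  have hxp : 0 < x := by
    rcases hx0.lt_or_eq with h | h
    · exact h
    · exfalso
      rw [← h] at hkey
      have h1 : 0 < (10 ^ 11 + C1) * a ^ 5 := by positivity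
      have h2 : D * (0 : ℝ) ^ 2 = 0 := by ring
      linarith
  have hx2 : 0 < x ^ 2 := by positivity
  have hLL : L ≤ L ^ 2 := by
    calc L = L * 1 := by ring
      _ ≤ L * L := mul_le_mul_of_nonneg_left hL1 hL0.le
      _ = L ^ 2 := by ring
  have hL20 : 0 < L ^ 2 := by positivity
  have hCL : 0 < C1 * L ^ 2 := by positivity
  have hC1L : C1 * L ≤ C1 * L ^ 2 := mul_le_mul_of_nonneg_left hLL hC1.le
  have hx4 : a ^ 4 ≤ L * x ^ 2 := by
    have h1 : C1 * a ^ 5 ≤ C1 * L * a * x ^ 2 := by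
      calc C1 * a ^ 5 ≤ (10 ^ 11 + C1) * a ^ 5 :=
            mul_le_mul_of_nonneg_right (by linarith) ha5.le
        _ ≤ D * x ^ 2 := hkey
        _ ≤ C1 * L * a * x ^ 2 := mul_le_mul_of_nonneg_right hD hx2.le
    have h2 : (C1 * a) * a ^ 4 ≤ (C1 * a) * (L * x ^ 2) := by
      calc (C1 * a) * a ^ 4 = C1 * a ^ 5 := by ring
        _ ≤ C1 * L * a * x ^ 2 := h1
        _ = (C1 * a) * (L * x ^ 2) := by ring
    exact le_of_mul_le_mul_left h2 (by positivity)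
  obtain ⟨r, hr⟩ : ∃ r : ℕ, r = ⌈8 * a ^ 2 / x⌉₊ := ⟨_, rfl⟩
  have hr1 : 8 * a ^ 2 ≤ r * x := by
    have h1 : 8 * a ^ 2 / x ≤ r := hr ▸ Nat.le_ceil _
    rwa [div_le_iff₀ hxp] at h1
  have hr2 : (r : ℝ) * x ≤ 9 * a ^ 2 := by
    have h1 : (r : ℝ) < 8 * a ^ 2 / x + 1 := hr ▸ Nat.ceil_lt_add_one (by positivity)
    have h2 : (r : ℝ) * x ≤ (8 * a ^ 2 / x + 1) * x :=
      mul_le_mul_of_nonneg_right h1.le hxp.le
    have h3 : (8 * a ^ 2 / x + 1) * x = 8 * a ^ 2 + x := by field_simp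
    linarith
  have hr0 : (0 : ℝ) ≤ r := Nat.cast_nonneg r
  have hr8 : (8 : ℝ) ≤ r := by
    have h1 : 8 * x ≤ r * x := by linarith
    exact le_of_mul_le_mul_right h1 hxp
  have hrx : (r : ℝ) ^ 2 * x ^ 2 ≤ 81 * a ^ 4 := by
    calc (r : ℝ) ^ 2 * x ^ 2 = ((r : ℝ) * x) ^ 2 := by ring
      _ ≤ (9 * a ^ 2) ^ 2 := pow_le_pow_left₀ (by positivity) hr2 2
      _ = 81 * a ^ 4 := by ring
  have hrL : (r : ℝ) ^ 2 ≤ 81 * L := by
    have h1 : (r : ℝ) ^ 2 * x ^ 2 ≤ 81 * L * x ^ 2 := by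
      calc (r : ℝ) ^ 2 * x ^ 2 ≤ 81 * a ^ 4 := hrx
        _ ≤ 81 * (L * x ^ 2) := mul_le_mul_of_nonneg_left hx4 (by norm_num)
        _ = 81 * L * x ^ 2 := by ring
    exact le_of_mul_le_mul_right h1 hx2
  refine ⟨r, by exact_mod_cast hr8, hr1, ?_, ?_, ?_, ?_⟩
  · have h1 : (10 ^ 11 : ℝ) * a ^ 5 ≤ D * x ^ 2 := by
      refine le_trans ?_ hkey
      exact mul_le_mul_of_nonneg_right (by linarith) ha5.le
    have h4 : (r : ℝ) ^ 2 * (10 ^ 9 * a) * x ^ 2 ≤ 81 * 10 ^ 9 * a ^ 5 := by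
      calc (r : ℝ) ^ 2 * (10 ^ 9 * a) * x ^ 2 = 10 ^ 9 * a * ((r : ℝ) ^ 2 * x ^ 2) := by ring
        _ ≤ 10 ^ 9 * a * (81 * a ^ 4) := mul_le_mul_of_nonneg_left hrx (by positivity)
        _ = 81 * 10 ^ 9 * a ^ 5 := by ring
    have h5 : a * x ^ 2 ≤ a ^ 5 := by
      calc a * x ^ 2 ≤ a * (a ^ 2) ^ 2 :=
            mul_le_mul_of_nonneg_left (pow_le_pow_left₀ hxp.le hx 2) ha0.le
        _ = a ^ 5 := by ring
    have h2 : ((r : ℝ) ^ 2 * (10 ^ 9 * a) + a) * x ^ 2 ≤ D * x ^ 2 := by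
      have h6 : ((r : ℝ) ^ 2 * (10 ^ 9 * a) + a) * x ^ 2 =
          (r : ℝ) ^ 2 * (10 ^ 9 * a) * x ^ 2 + a * x ^ 2 := by ring
      rw [h6]
      linarith
    exact le_of_mul_le_mul_right h2 hx2
  · have h1 : (r : ℝ) ^ 4 ≤ 6561 * L ^ 2 := by
      calc (r : ℝ) ^ 4 = ((r : ℝ) ^ 2) ^ 2 := by ring
        _ ≤ (81 * L) ^ 2 := pow_le_pow_left₀ (by positivity) hrL 2
        _ = 6561 * L ^ 2 := by ring
    have h2 : (10 ^ 9 : ℝ) * (r : ℝ) ^ 4 ≤ 10 ^ 9 * (6561 * L ^ 2) :=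
      mul_le_mul_of_nonneg_left h1 (by norm_num)
    linarith
  · have h1 : 16 * (C1 * L) ≤ a := by linarith
    calc 16 * D ≤ 16 * (C1 * L * a) := mul_le_mul_of_nonneg_left hD (by norm_num)
      _ = (16 * (C1 * L)) * a := by ring
      _ ≤ a * a := mul_le_mul_of_nonneg_right h1 ha0.le
      _ = a ^ 2 := by ring
  · have h1 : a ^ 2 ≤ L * x := by
      have h2 : (a ^ 2) ^ 2 ≤ (L * x) ^ 2 := by
        calc (a ^ 2) ^ 2 = a ^ 4 := by ring
          _ ≤ L * x ^ 2 := hx4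
          _ ≤ L ^ 2 * x ^ 2 := mul_le_mul_of_nonneg_right hLL hx2.le
          _ = (L * x) ^ 2 := by ring
      exact (pow_le_pow_iff_left₀ (by positivity) (by positivity) (by norm_num)).1 h2
    have h3 : L * (2 * D) ≤ L * x := by
      calc L * (2 * D) ≤ L * (2 * (C1 * L * a)) :=
            mul_le_mul_of_nonneg_left (mul_le_mul_of_nonneg_left hD (by norm_num)) hL0.le
        _ = (2 * C1 * L ^ 2) * a := by ring
        _ ≤ a * a := mul_le_mul_of_nonneg_right (by linarith) ha0.le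
        _ = a ^ 2 := by ring
        _ ≤ L * x := h1
    exact le_of_mul_le_mul_left h3 hL0

/-- The window in natural numbers. -/
lemma window_nat (hC : TL.CoreP) {a b k r : ℕ} {lam : Fin (k + 3) → ℕ}
    (hs : ∑ i, lam i = a * b) (ha1 : 1 ≤ a) (hab : 100 * a ≤ b) (hr8 : 8 ≤ r)
    (hr1 : 8 * a ^ 2 ≤ r * lam 1) (hrD : r ^ 2 * (10 ^ 9 * a) + a ≤ TL.dn2 lam)
    (hr4 : 10 ^ 9 * r ^ 4 ≤ a) (hD16 : 16 * TL.dn2 lam ≤ a ^ 2) (hDx : 2 * TL.dn2 lam ≤ lam 1)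
    (hx : lam 1 ≤ a ^ 2) (hfew : b ≤ TL.dn2 lam + a) :
    plethMult a b (k + 3) lam ≤ plethMult b a (k + 3) lam := by
  have hsum0 : lam 0 + lam 1 + TL.dn2 lam = a * b := by
    have h1 : ∑ i, lam i = lam 0 + ∑ i : Fin (k + 2), lam i.succ := Fin.sum_univ_succ _
    have h2 : ∑ i : Fin (k + 2), lam i.succ =
        lam (Fin.succ 0) + ∑ i : Fin (k + 1), lam i.succ.succ := Fin.sum_univ_succ _
    have h3 : lam (Fin.succ 0) = lam 1 := rfl
    have h4 : TL.dn2 lam = ∑ i : Fin (k + 1), lam i.succ.succ := rfl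
    omega
  have hl2 : lam 2 ≤ TL.dn2 lam :=
    Finset.single_le_sum (f := fun i : Fin (k + 1) => lam i.succ.succ) (fun _ _ => Nat.zero_le _)
      (Finset.mem_univ 0)
  have hgap : r * lam 2 + 4 * a ^ 2 ≤ r * lam 1 := by
    have h1 : r * (2 * lam 2) ≤ r * lam 1 := Nat.mul_le_mul_left _ (by omega)
    have h2 : r * (2 * lam 2) = 2 * (r * lam 2) := by ring
    omega
  obtain ⟨q, hqd⟩ : ∃ q, q = 5 + 16 * TL.dn2 lam / a ^ 2 := ⟨_, rfl⟩
  have hq6 : q ≤ 6 := by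
    have h1 : 0 < a ^ 2 := by positivity
    have : 16 * TL.dn2 lam / a ^ 2 < 2 := by
      rw [Nat.div_lt_iff_lt_mul h1]
      omega
    omega
  have hq2 : q ^ 2 ≤ 36 := by
    calc q ^ 2 ≤ 6 ^ 2 := Nat.pow_le_pow_left hq6 2
      _ = 36 := by norm_num
  have hDq : 2 * (36 * r) * q ^ 2 ≤ 2592 * r := by
    calc 2 * (36 * r) * q ^ 2 ≤ 2 * (36 * r) * 36 := Nat.mul_le_mul_left _ hq2
      _ = 2592 * r := by ring
  refine TL.H976.driveA hC (m := 36 * r) (r := r) hs ha1 hqd (by omega) ?_ (by omega) ?_ ?_ hgap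
    ?_ hfew
  · rw [mul_comm 36]
    exact Nat.mul_le_mul_left _ hq2
  · refine le_trans ?_ hr4
    calc 12 * (r * (2 * (36 * r) * q ^ 2)) ^ 2 * q ≤ 12 * (r * (2592 * r)) ^ 2 * 6 :=
          Nat.mul_le_mul (Nat.mul_le_mul_left _ (Nat.pow_le_pow_left
            (Nat.mul_le_mul_left _ hDq) 2)) hq6
      _ = 483729408 * r ^ 4 := by ring
      _ ≤ 10 ^ 9 * r ^ 4 := Nat.mul_le_mul_right _ (by norm_num)
  · rw [Nat.le_div_iff_mul_le (by omega)]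
    have h1 : r ^ 2 * (107495424 * a) ≤ r ^ 2 * (10 ^ 9 * a) :=
      Nat.mul_le_mul_left _ (Nat.mul_le_mul_right _ (by norm_num))
    calc 16 * (2 * (36 * r) * q ^ 2) ^ 2 * a ≤ 16 * (2592 * r) ^ 2 * a :=
          Nat.mul_le_mul_right _ (Nat.mul_le_mul_left _ (Nat.pow_le_pow_left hDq 2))
      _ = r ^ 2 * (107495424 * a) := by ring
      _ ≤ TL.dn2 lam := by omega
  · have h1 : a * (100 * a) ≤ a * b := Nat.mul_le_mul_left _ hab
    have h2 : a * (100 * a) = 100 * a ^ 2 := by ring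
    omega

/-- The window. -/
theorem window (hC : TL.CoreP) (hFew : FewA) {C1 : ℝ} {c1 : ℕ} (hC1 : 0 < C1) :
    ∃ A : ℕ, ∀ (a b n : ℕ) (lam : Fin n → ℕ), A ≤ a → 100 * a ≤ b → Antitone lam →
      ∑ i, lam i = a * b → (dn lam 2 : ℝ) ≤ C1 * (1 + Real.log a) ^ c1 * a →
      (ex lam 1 : ℝ) ≤ (a : ℝ) ^ 2 →
      (10 ^ 11 + C1) * (a : ℝ) ^ 5 ≤ (dn lam 2 : ℝ) * (ex lam 1 : ℝ) ^ 2 →
      plethMult a b n lam ≤ plethMult b a n lam := by
  obtain ⟨A, hA⟩ := polylog_le (10 ^ 13 + 16 * C1 + 2 * C1) (2 * c1)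
  refine ⟨A + 1, fun a b n lam haA hab hl hs hD hx hkey => ?_⟩
  have hsm := hA a (by omega)
  have ha1 : 1 ≤ a := by omega
  have haR : (1 : ℝ) ≤ a := by exact_mod_cast ha1
  have hL := one_le_L a
  by_cases hfew : a + dn lam 2 ≤ b + 1
  · exact hFew a b n lam (by omega) (by omega)
  -- at least three rows
  rcases Nat.lt_or_ge n 3 with hn | hn
  · exfalso
    have h0 : dn lam 2 = 0 := by
      rw [dn_range]
      refine sum_eq_zero fun j hj => ?_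
      have := mem_range.1 hj
      rw [if_neg (by omega)]
    omega
  obtain ⟨k, rfl⟩ : ∃ k, n = k + 3 := ⟨n - 3, by omega⟩
  have e1 : ex lam 1 = lam 1 := ex_coe lam 1
  have e3 : TL.dn2 lam = dn lam 2 := by
    unfold TL.dn2 dn
    conv_rhs => rw [Fin.sum_univ_succ, Fin.sum_univ_succ]
    simp
  rw [e1, ← e3] at hkey
  rw [e1] at hx
  rw [← e3] at hD hfew
  obtain ⟨r, h1, h2, h3, h4, h5, h6⟩ := reals (a := a) (D := TL.dn2 lam) (x := lam 1)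
    (L := (1 + Real.log a) ^ c1) (C1 := C1) haR (one_le_pow₀ hL) hC1 (Nat.cast_nonneg _) (by
      have e4 : ((1 + Real.log (a : ℝ)) ^ c1) ^ 2 = (1 + Real.log a) ^ (2 * c1) := by
        rw [← pow_mul, mul_comm]
      rw [e4]
      linarith) hD hx hkey
  exact window_nat hC hs ha1 hab h1 (by exact_mod_cast h2) (by exact_mod_cast h3)
    (by exact_mod_cast h4) (by exact_mod_cast h5) (by exact_mod_cast h6) (by exact_mod_cast hx)
    (by omega)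

/-- **LinU.** -/
theorem linU_of (hF : LinFull) (hC : TL.CoreP) (hP : PolyS) (hFew : FewA) : LinU := by
  obtain ⟨C1, c1, hC1, h1⟩ := hF 1 one_pos
  obtain ⟨A, hA⟩ := window hC hFew (C1 := C1) (c1 := c1) hC1
  obtain ⟨C3, hC3, h3⟩ := small_a hP A
  refine ⟨10 ^ 11 + C1 + C3, c1, by positivity, fun a b hab n lam hor => ?_⟩
  by_cases hz : plethMult a b n lam = 0
  · rw [hz]
    exact Nat.zero_le _
  obtain ⟨hl, hs, _⟩ := H530.zero_stmt a b n lam hz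
  have ha0 : (0 : ℝ) ≤ a := Nat.cast_nonneg a
  have g1 : (100 : ℝ) * a ≤ b := by
    refine le_trans (mul_le_mul_of_nonneg_right ?_ ha0) hab
    linarith
  have g2 : C1 * a ≤ b := by
    refine le_trans (mul_le_mul_of_nonneg_right ?_ ha0) hab
    linarith
  have g3 : C3 * a ≤ b := by
    refine le_trans (mul_le_mul_of_nonneg_right ?_ ha0) hab
    linarith
  have g1' : 100 * a ≤ b := by exact_mod_cast g1
  have hL := one_le_L a
  have hLc : (1 : ℝ) ≤ (1 + Real.log a) ^ c1 := one_le_pow₀ hL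
  rcases Nat.lt_or_ge a A with haA | haA
  · exact h3 a b haA g3 n lam
  have hmono : C1 * (1 + Real.log a) ^ c1 ≤ (10 ^ 11 + C1 + C3) * (1 + Real.log a) ^ c1 :=
    mul_le_mul_of_nonneg_right (by linarith) (by positivity)
  by_cases hcase1 : (a : ℝ) ^ 2 ≤ (ex lam 1 : ℝ)
  · exact h1 a b g2 n lam (Or.inl (by rw [one_mul]; exact hcase1))
  by_cases hcase2 : C1 * (1 + Real.log a) ^ c1 * a ≤ (dn lam 2 : ℝ)
  · exact h1 a b g2 n lam (Or.inr (Or.inr (Or.inl hcase2)))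
  rw [not_le] at hcase1 hcase2
  rcases hor with h | h | h | h
  · exact h1 a b g2 n lam (Or.inr (Or.inl
      (le_trans (mul_le_mul_of_nonneg_right hmono (Nat.cast_nonneg _)) h)))
  · exact h1 a b g2 n lam (Or.inr (Or.inr (Or.inl
      (le_trans (mul_le_mul_of_nonneg_right hmono ha0) h))))
  · refine hA a b n lam haA g1' hl hs hcase2.le hcase1.le (le_trans ?_ h)
    exact mul_le_mul_of_nonneg_right (by linarith) (by positivity)
  · exact h1 a b g2 n lam (Or.inr (Or.inr (Or.inr h)))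

/-- **LinUD.** -/
theorem linUD_of (hF : LinD) (hC : TL.CoreP) (hP : PolyS) (hFew : FewA) : LinUD := by
  obtain ⟨C1, c1, hC1, h1⟩ := hF 1 one_pos
  obtain ⟨A, hA⟩ := window hC hFew (C1 := C1) (c1 := c1) hC1
  obtain ⟨C3, hC3, h3⟩ := small_a hP A
  refine ⟨10 ^ 11 + C1 + C3, c1, by positivity, fun a b hab n lam hd hor => ?_⟩
  by_cases hz : plethMult a b n lam = 0
  · rw [hz]
    exact Nat.zero_le _
  obtain ⟨hl, hs, _⟩ := H530.zero_stmt a b n lam hz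
  have ha0 : (0 : ℝ) ≤ a := Nat.cast_nonneg a
  have g1 : (100 : ℝ) * a ≤ b := by
    refine le_trans (mul_le_mul_of_nonneg_right ?_ ha0) hab
    linarith
  have g2 : C1 * a ≤ b := by
    refine le_trans (mul_le_mul_of_nonneg_right ?_ ha0) hab
    linarith
  have g3 : C3 * a ≤ b := by
    refine le_trans (mul_le_mul_of_nonneg_right ?_ ha0) hab
    linarith
  have g4 : C1 * (dn lam 2 : ℝ) ≤ a * b := by
    refine le_trans (mul_le_mul_of_nonneg_right ?_ (Nat.cast_nonneg _)) hd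
    linarith
  have g1' : 100 * a ≤ b := by exact_mod_cast g1
  have hL := one_le_L a
  have hLc : (1 : ℝ) ≤ (1 + Real.log a) ^ c1 := one_le_pow₀ hL
  rcases Nat.lt_or_ge a A with haA | haA
  · exact h3 a b haA g3 n lam
  have hmono : C1 * (1 + Real.log a) ^ c1 ≤ (10 ^ 11 + C1 + C3) * (1 + Real.log a) ^ c1 :=
    mul_le_mul_of_nonneg_right (by linarith) (by positivity)
  by_cases hcase1 : (a : ℝ) ^ 2 ≤ (ex lam 1 : ℝ)
  · exact h1 a b g2 n lam g4 (Or.inl (by rw [one_mul]; exact hcase1))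
  by_cases hcase2 : C1 * (1 + Real.log a) ^ c1 * a ≤ (dn lam 2 : ℝ)
  · exact h1 a b g2 n lam g4 (Or.inr (Or.inr (Or.inl hcase2)))
  rw [not_le] at hcase1 hcase2
  rcases hor with h | h | h | h
  · exact h1 a b g2 n lam g4 (Or.inr (Or.inl
      (le_trans (mul_le_mul_of_nonneg_right hmono (Nat.cast_nonneg _)) h)))
  · exact h1 a b g2 n lam g4 (Or.inr (Or.inr (Or.inl
      (le_trans (mul_le_mul_of_nonneg_right hmono ha0) h))))
  · refine hA a b n lam haA g1' hl hs hcase2.le hcase1.le (le_trans ?_ h)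
    exact mul_le_mul_of_nonneg_right (by linarith) (by positivity)
  · exact h1 a b g2 n lam g4 (Or.inr (Or.inr (Or.inr h)))

end Vale.Agent.P181.LF.H290
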